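import Vale.Agent.P069.Defs
import Mathlib.Combinatorics.SimpleGraph.Metric

namespace Vale.Agent.P069.H778

/-- A graph together with its vertex set. -/
structure Graph where
  /-- the vertices -/
  V : Type
  /-- the edges -/
  E : SimpleGraph V

/-- Replace every edge `{a, b}` of `G` by the infinitely many two-edge paths
`a - (e, i) - b`, `i : ℕ`, where `e = {a, b}`. -/
def subdivide {V : Type} (G : SimpleGraph V) : SimpleGraph (V ⊕ (G.edgeSet × ℕ)) where
  Adj
    | .inl a, .inr p => a ∈ p.1.1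
    | .inr p, .inl a => a ∈ p.1.1
    | .inl _, .inl _ => False
    | .inr _, .inr _ => False
  symm := ⟨by rintro (a | p) (b | q) h <;> exact h⟩
  loopless := ⟨by rintro (a | p) h <;> exact h⟩

/-- The countably branching diamond graph `D_k`. -/
def diamond : ℕ → Graph
  | 0 => ⟨Bool, ⊤⟩
  | k + 1 => ⟨(diamond k).V ⊕ ((diamond k).E.edgeSet × ℕ), subdivide (diamond k).E⟩

/-- The countably branching tree of height `n`: the vertices are the lists of length at most `n`,
and `s`, `t` are joined when one of them is `i :: (the other one)` for some `i`. -/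
def tree (n : ℕ) : Graph where
  V := {t : List ℕ // t.length ≤ n}
  E :=
    { Adj := fun s t => (∃ i, s.1 = i :: t.1) ∨ ∃ i, t.1 = i :: s.1
      symm := ⟨fun _ _ h => h.symm⟩
      loopless := ⟨fun t h => by
        rcases h with ⟨i, h⟩ | ⟨i, h⟩ <;> exact absurd (congrArg List.length h) (by simp)⟩ }

/-- The vertices of the graph `G`, with the shortest-path metric, embed into `Z` with
bi-Lipschitz distortion at most `D`. -/
def EmbedsWith (G : Graph) (Z : Type) [NormedAddCommGroup Z] (D : ℝ) : Prop :=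
  ∃ f : G.V → Z, ∃ s : ℝ, 0 < s ∧ ∀ x y : G.V,
    s * (G.E.dist x y : ℝ) ≤ ‖f x - f y‖ ∧ ‖f x - f y‖ ≤ D * (s * (G.E.dist x y : ℝ))

/-- The statement that Q1 asks to prove or disprove. -/
def Q1 : Prop :=
  ∀ (X : Type) [NormedAddCommGroup X] [NormedSpace ℝ X] [CompleteSpace X],
    ¬ FiniteDimensional ℝ X → IsReflexive X → AMUCRenormable X → AUCRenormable X

/-- `Z` is isometric to an `ℓ₂`-sum of a sequence of spaces each isomorphic to `ℓ₂`
(realised as `ℓ₂` over the countable set of lists of natural numbers). -/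
def IsSumOfHilbertian (Z : Type) [NormedAddCommGroup Z] [NormedSpace ℝ Z] : Prop :=
  ∃ (X : ℕ → Type) (_ : ∀ n, NormedAddCommGroup (X n)) (_ : ∀ n, NormedSpace ℝ (X n)),
    (∀ n, Nonempty (X n ≃L[ℝ] lp (fun _ : List ℕ => ℝ) 2)) ∧ Nonempty (Z ≃ₗᵢ[ℝ] lp X 2)

/-- `Z` has a monotone Schauder basis. -/
def HasMonotoneBasis (Z : Type) [NormedAddCommGroup Z] [NormedSpace ℝ Z] : Prop :=
  ∃ b : SchauderBasis ℝ Z, ∀ N : ℕ, ‖b.proj N‖ ≤ 1

/-- Every embedding of the diamond `D_k` into `Z` has distortion at least `√(1 + k/32)`. -/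
def DiamondsDistorted (Z : Type) [NormedAddCommGroup Z] : Prop :=
  ∀ (k : ℕ) (D : ℝ), EmbedsWith (diamond k) Z D → Real.sqrt (1 + k / 32) ≤ D

/-- All countably branching trees of finite height embed into `Z` with distortion at most `√3`. -/
def TreesEmbed (Z : Type) [NormedAddCommGroup Z] : Prop :=
  ∀ n : ℕ, EmbedsWith (tree n) Z (Real.sqrt 3)

end Vale.Agent.P069.H778
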