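import Vale.Agent.P069.H778.Defs

namespace Vale.Agent.P069.H778

open SimpleGraph

variable {V : Type} {G : SimpleGraph V}

lemma adj_inl_inr {a : V} {p : G.edgeSet × ℕ} (h : a ∈ p.1.1) :
    (subdivide G).Adj (.inl a) (.inr p) := h

lemma adj_inr_inl {a : V} {p : G.edgeSet × ℕ} (h : a ∈ p.1.1) :
    (subdivide G).Adj (.inr p) (.inl a) := h

lemma reachable_inl {a b : V} (h : G.Reachable a b) :
    (subdivide G).Reachable (.inl a) (.inl b) := by
  obtain ⟨p⟩ := h
  induction p with
  | nil => exact Reachable.refl _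
  | @cons u v w h p ih =>
    have h1 : (subdivide G).Adj (.inl u) (.inr (⟨s(u, v), h⟩, 0)) := adj_inl_inr (by simp)
    have h2 : (subdivide G).Adj (.inr (⟨s(u, v), h⟩, 0)) (.inl v) := adj_inr_inl (by simp)
    exact (h1.reachable.trans h2.reachable).trans ih

lemma preconnected_subdivide (h : G.Preconnected) : (subdivide G).Preconnected := by
  have key : ∀ x, ∃ a : V, (subdivide G).Reachable x (.inl a) := by
    rintro (a | ⟨⟨e, he⟩, i⟩)
    · exact ⟨a, Reachable.refl _⟩
    · induction e using Sym2.ind with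
      | _ a b =>
        exact ⟨a, (adj_inr_inl (p := (⟨s(a, b), he⟩, i)) (by simp)).reachable⟩
  intro x y
  obtain ⟨a, ha⟩ := key x
  obtain ⟨b, hb⟩ := key y
  exact (ha.trans (reachable_inl (h a b))).trans hb.symm

lemma dist_le_of_mem (h : G.Preconnected) {a x b : V} {e : Sym2 V} (he : e ∈ G.edgeSet)
    (ha : a ∈ e) (hx : x ∈ e) : G.dist a b ≤ 1 + G.dist x b := by
  by_cases hax : a = x
  · subst hax; omega
  · have hadj : G.Adj a x := by
      have : e = s(a, x) := (Sym2.mem_and_mem_iff hax).1 ⟨ha, hx⟩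
      rw [this] at he
      exact he
    obtain ⟨p, hp⟩ := (h x b).exists_walk_length_eq_dist
    have := dist_le (Walk.cons hadj p)
    rw [Walk.length_cons, hp] at this
    omega

lemma two_mul_dist_le_aux (h : G.Preconnected) (n : ℕ) : ∀ (a b : V)
    (p : (subdivide G).Walk (.inl a) (.inl b)), p.length ≤ n → 2 * G.dist a b ≤ p.length := by
  induction n using Nat.strong_induction_on with
  | _ n ih =>
    intro a b p hp
    match p, hp with
    | .nil, _ => simp
    | .cons (v := .inl x) h1 p', hp => exact False.elim h1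
    | .cons (v := .inr q) h1 (.cons (v := .inr q') h2 p'), hp => exact False.elim h2
    | .cons (v := .inr q) h1 (.cons (v := .inl x) h2 p'), hp =>
      rw [Walk.length_cons, Walk.length_cons] at hp ⊢
      have h3 := ih p'.length (by omega) x b p' le_rfl
      have h4 := dist_le_of_mem (b := b) h q.1.2 h1 h2
      omega

lemma two_mul_dist_le (h : G.Preconnected) (a b : V) :
    2 * G.dist a b ≤ (subdivide G).dist (.inl a) (.inl b) := by
  obtain ⟨p, hp⟩ := (preconnected_subdivide h (.inl a) (.inl b)).exists_walk_length_eq_dist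
  have := two_mul_dist_le_aux h _ a b p le_rfl
  omega

lemma two_le_dist (h : G.Preconnected) (e : G.edgeSet) {i j : ℕ} (hij : i ≠ j) :
    2 ≤ (subdivide G).dist (.inr (e, i)) (.inr (e, j)) := by
  have h1 : (subdivide G).dist (.inr (e, i)) (.inr (e, j)) ≠ 0 := by
    have := (preconnected_subdivide h (.inr (e, i)) (.inr (e, j))).pos_dist_of_ne
      (by simpa using hij)
    omega
  have h2 : (subdivide G).dist (.inr (e, i)) (.inr (e, j)) ≠ 1 := by
    intro h2
    rw [dist_eq_one_iff_adj] at h2
    exact h2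
  omega

lemma preconnected_diamond (k : ℕ) : (diamond k).E.Preconnected := by
  induction k with
  | zero => exact SimpleGraph.preconnected_top
  | succ k ih => exact preconnected_subdivide ih

lemma exists_adj_diamond (k : ℕ) : ∃ x y : (diamond k).V, (diamond k).E.Adj x y := by
  induction k with
  | zero => exact ⟨false, true, by simp [diamond]⟩
  | succ k ih =>
    obtain ⟨x, y, h⟩ := ih
    exact ⟨.inl x, .inr (⟨s(x, y), h⟩, 0), adj_inl_inr (by simp)⟩

/-! ### Trees -/

/-- The vertex `t` of the tree. -/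
def node {n : ℕ} (t : List ℕ) (h : t.length ≤ n) : (tree n).V := ⟨t, h⟩

lemma exists_walk_tree {n : ℕ} (l r : List ℕ) (h : (l ++ r).length ≤ n) (h' : r.length ≤ n) :
    ∃ p : (tree n).E.Walk (node (l ++ r) h) (node r h'), p.length = l.length := by
  induction l with
  | nil => exact ⟨.nil, rfl⟩
  | cons i l ih =>
    obtain ⟨p, hp⟩ := ih (by simp at h ⊢; omega)
    have hadj : (tree n).E.Adj (node (i :: l ++ r) h) (node (l ++ r) (by simp at h ⊢; omega)) :=
      Or.inl ⟨i, rfl⟩
    exact ⟨.cons hadj p, by rw [Walk.length_cons, hp, List.length_cons]⟩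

lemma tree_reachable_nil {n : ℕ} (t : (tree n).V) :
    (tree n).E.Reachable t (node [] (Nat.zero_le n)) := by
  obtain ⟨t, ht⟩ := t
  obtain ⟨p, _⟩ := exists_walk_tree t [] (by simpa using ht) (Nat.zero_le n)
  have : node (t ++ []) (by simpa using ht) = (⟨t, ht⟩ : (tree n).V) :=
    Subtype.ext (by simp [node])
  rw [← this]
  exact ⟨p⟩

lemma preconnected_tree (n : ℕ) : (tree n).E.Preconnected := fun s t =>
  (tree_reachable_nil s).trans (tree_reachable_nil t).symm

lemma tree_dist_le {n : ℕ} (s' t' r : List ℕ) (hs : (s' ++ r).length ≤ n)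
    (ht : (t' ++ r).length ≤ n) :
    (tree n).E.dist (node (s' ++ r) hs) (node (t' ++ r) ht) ≤ s'.length + t'.length := by
  have hr : r.length ≤ n := by simp at hs; omega
  obtain ⟨p, hp⟩ := exists_walk_tree s' r hs hr
  obtain ⟨q, hq⟩ := exists_walk_tree t' r ht hr
  have h := dist_le (p.append q.reverse)
  have h2 : (p.append q.reverse).length = s'.length + t'.length := by
    rw [Walk.length_append, Walk.length_reverse, hp, hq]
  omega

/-- Longest common prefix. -/
lemma exists_lcp (s t : List ℕ) : ∃ r s' t' : List ℕ, s = r ++ s' ∧ t = r ++ t' ∧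
    ∀ c s'' t'', s' = c :: s'' → t' ≠ c :: t'' := by
  induction s generalizing t with
  | nil => exact ⟨[], [], t, rfl, rfl, fun c s'' t'' h => by simp at h⟩
  | cons a s ih =>
    cases t with
    | nil => exact ⟨[], a :: s, [], rfl, rfl, fun c s'' t'' _ h => by simp at h⟩
    | cons b t =>
      by_cases hab : a = b
      · subst hab
        obtain ⟨r, s', t', h1, h2, h3⟩ := ih t
        exact ⟨a :: r, s', t', by rw [h1]; rfl, by rw [h2]; rfl, h3⟩
      · refine ⟨[], a :: s, b :: t, rfl, rfl, fun c s'' t'' h1 h2 => ?_⟩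
        injection h1 with h1 _
        injection h2 with h2 _
        exact hab (h1.trans h2.symm)

/-- Longest common suffix. -/
lemma exists_lcs (s t : List ℕ) : ∃ r s' t' : List ℕ, s = s' ++ r ∧ t = t' ++ r ∧
    ∀ c s'' t'', s' = s'' ++ [c] → t' ≠ t'' ++ [c] := by
  obtain ⟨r, s', t', h1, h2, h3⟩ := exists_lcp s.reverse t.reverse
  refine ⟨r.reverse, s'.reverse, t'.reverse, ?_, ?_, fun c s'' t'' h h' => ?_⟩
  · rw [← List.reverse_append, ← h1, List.reverse_reverse]
  · rw [← List.reverse_append, ← h2, List.reverse_reverse]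
  · have e1 : s' = c :: s''.reverse := by
      rw [← List.reverse_reverse s', h]; simp
    have e2 : t' = c :: t''.reverse := by
      rw [← List.reverse_reverse t', h']; simp
    exact h3 c _ _ e1 e2

end Vale.Agent.P069.H778
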