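import Vale.Agent.P069.Bdl.B1
import Vale.Agent.P069.H778.Graph
attribute [-instance] ProperSMul.toContinuousSMul IsTopologicalTorsor.toContinuousSMul IdemSemiring.toCanonicallyOrderedAdd IdemSemiring.toMulLeftMono IdemSemiring.toMulRightMono AddQuantale.instAddLeftMono AddQuantale.instAddRightMono Quantale.instMulLeftMono Quantale.instMulRightMono FiniteDimensional.rclike_to_real IsScalarTower.complexToReal FiniteDimensional.complexToReal

namespace Vale.Agent.P069.H778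

open Filter Topology

section mid

variable {X : Type*} [NormedAddCommGroup X] [NormedSpace ℝ X]

/-- Two terms of a bounded sequence differ by an element close to a given finite-codimensional
closed subspace. -/
theorem exists_pair {F : Submodule ℝ X} (hF : IsCofinite F) {y : ℕ → X} {R : ℝ}
    (hy : ∀ i, ‖y i‖ ≤ R) {ε : ℝ} (hε : 0 < ε) :
    ∃ i j, i ≠ j ∧ ∃ z ∈ F, ‖(y i - y j) - z‖ < ε := by
  have : IsClosed (F : Set X) := hF.1
  have : FiniteDimensional ℝ (X ⧸ F) := hF.2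
  have : ProperSpace (X ⧸ F) := FiniteDimensional.proper_real _
  have hb : ∀ i, F.mkQ (y i) ∈ Metric.closedBall (0 : X ⧸ F) R := by
    intro i
    rw [mem_closedBall_zero_iff]
    exact (Submodule.Quotient.norm_mk_le F (y i)).trans (hy i)
  obtain ⟨a, _, φ, hφ, hlim⟩ :=
    (isCompact_closedBall (0 : X ⧸ F) R).tendsto_subseq hb
  have hc := hlim.cauchySeq
  rw [Metric.cauchySeq_iff] at hc
  obtain ⟨N, hN⟩ := hc (ε / 2) (by linarith)
  have h1 := hN N le_rfl (N + 1) (by omega)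
  rw [dist_eq_norm, Function.comp_apply, Function.comp_apply, ← map_sub] at h1
  obtain ⟨m, hm1, hm2⟩ := Submodule.Quotient.norm_mk_lt (F.mkQ (y (φ N) - y (φ (N + 1))))
    (show (0 : ℝ) < ε / 2 by linarith)
  refine ⟨φ N, φ (N + 1), (hφ (Nat.lt_succ_self N)).ne, (y (φ N) - y (φ (N + 1))) - m, ?_, ?_⟩
  · rw [← Submodule.Quotient.mk_eq_zero, Submodule.Quotient.mk_sub, hm1]
    simp
  · have : (y (φ N) - y (φ (N + 1))) - ((y (φ N) - y (φ (N + 1))) - m) = m := by abel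
    rw [this]
    linarith

/-- Infinitely many separated approximate midpoints of `z` and `w`. -/
theorem mid_aux {c : ℝ} (hc : 0 < c) (hD : Dense {u : X | TwoAMUC c u}) {z w : X} {m : ℕ → X}
    {L δ : ℝ} (h1 : ∀ i, ‖z - m i‖ ≤ L) (h2 : ∀ i, ‖m i - w‖ ≤ L)
    (h3 : ∀ i j, i ≠ j → 2 * δ ≤ ‖m i - m j‖) {ε : ℝ} (hε : 0 < ε) :
    2 * (max (‖(1 / 2 : ℝ) • (z - w)‖ - ε) 0) ^ 2 + c * (max (δ - ε) 0) ^ 2 ≤
      2 * (L + 2 * ε) ^ 2 := by
  set u : X := (1 / 2 : ℝ) • (z - w) with hu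
  obtain ⟨u', ⟨F, hF, hFu⟩, huu'⟩ := Metric.mem_closure_iff.1 (hD u) ε hε
  rw [dist_eq_norm] at huu'
  have hb : ∀ i, ‖(1 / 2 : ℝ) • m i‖ ≤ (1 / 2) * (‖z‖ + L) := by
    intro i
    rw [norm_smul, Real.norm_of_nonneg (by norm_num)]
    have : ‖m i‖ ≤ ‖z‖ + ‖z - m i‖ := by
      have := norm_sub_le z (z - m i)
      rwa [sub_sub_cancel] at this
    have := h1 i
    linarith
  obtain ⟨i, j, hij, y', hy'F, hy'⟩ := exists_pair hF hb hε
  set y : X := (1 / 2 : ℝ) • m i - (1 / 2 : ℝ) • m j with hy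
  have hL0 : 0 ≤ L := (norm_nonneg _).trans (h1 0)
  have hy1 : δ ≤ ‖y‖ := by
    have e : y = (1 / 2 : ℝ) • (m i - m j) := by rw [hy, smul_sub]
    rw [e, norm_smul, Real.norm_of_nonneg (by norm_num)]
    have := h3 i j hij
    linarith
  have hp : ‖u + y‖ ≤ L := by
    have e : u + y = (1 / 2 : ℝ) • ((z - m j) + (m i - w)) := by
      rw [hu, hy, ← smul_sub, ← smul_add]; congr 1; abel
    rw [e, norm_smul, Real.norm_of_nonneg (by norm_num)]
    have := norm_add_le (z - m j) (m i - w)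
    have := h1 j
    have := h2 i
    linarith
  have hm : ‖u - y‖ ≤ L := by
    have e : u - y = (1 / 2 : ℝ) • ((z - m i) + (m j - w)) := by
      rw [hu, hy, ← smul_sub, ← smul_sub]; congr 1; abel
    rw [e, norm_smul, Real.norm_of_nonneg (by norm_num)]
    have := norm_add_le (z - m i) (m j - w)
    have := h1 i
    have := h2 j
    linarith
  have hp' : ‖u' + y'‖ ≤ L + 2 * ε := by
    have e : u' + y' = (u + y) - ((u - u') + (y - y')) := by abel
    rw [e]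
    have := norm_sub_le (u + y) ((u - u') + (y - y'))
    have := norm_add_le (u - u') (y - y')
    linarith
  have hm' : ‖u' - y'‖ ≤ L + 2 * ε := by
    have e : u' - y' = (u - y) - ((u - u') - (y - y')) := by abel
    rw [e]
    have := norm_sub_le (u - y) ((u - u') - (y - y'))
    have := norm_sub_le (u - u') (y - y')
    linarith
  have hu' : max (‖u‖ - ε) 0 ≤ ‖u'‖ := by
    refine max_le ?_ (norm_nonneg _)
    have := norm_sub_norm_le u u'
    linarith
  have hy'' : max (δ - ε) 0 ≤ ‖y'‖ := by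
    refine max_le ?_ (norm_nonneg _)
    have := norm_sub_norm_le y y'
    linarith
  have k1 := hFu y' hy'F
  have k2 : ‖u' + y'‖ ^ 2 ≤ (L + 2 * ε) ^ 2 := pow_le_pow_left₀ (norm_nonneg _) hp' 2
  have k3 : ‖u' - y'‖ ^ 2 ≤ (L + 2 * ε) ^ 2 := pow_le_pow_left₀ (norm_nonneg _) hm' 2
  have k4 : (max (‖u‖ - ε) 0) ^ 2 ≤ ‖u'‖ ^ 2 := pow_le_pow_left₀ (le_max_right _ _) hu' 2
  have k5 : (max (δ - ε) 0) ^ 2 ≤ ‖y'‖ ^ 2 := pow_le_pow_left₀ (le_max_right _ _) hy'' 2
  have k6 := mul_le_mul_of_nonneg_left k5 hc.le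
  linarith

theorem mid {c : ℝ} (hc : 0 < c) (hD : Dense {u : X | TwoAMUC c u}) {z w : X} {m : ℕ → X}
    {L δ : ℝ} (hδ : 0 ≤ δ) (h1 : ∀ i, ‖z - m i‖ ≤ L) (h2 : ∀ i, ‖m i - w‖ ≤ L)
    (h3 : ∀ i j, i ≠ j → 2 * δ ≤ ‖m i - m j‖) :
    ‖z - w‖ ^ 2 + 2 * c * δ ^ 2 ≤ 4 * L ^ 2 := by
  have hcont : Continuous fun ε : ℝ => 2 * (L + 2 * ε) ^ 2 -
      (2 * (max (‖(1 / 2 : ℝ) • (z - w)‖ - ε) 0) ^ 2 + c * (max (δ - ε) 0) ^ 2) := by
    fun_prop
  have hlim := (hcont.tendsto 0).mono_left (nhdsWithin_le_nhds (s := Set.Ioi 0))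
  have hge := ge_of_tendsto hlim (b := 0) (by
    filter_upwards [self_mem_nhdsWithin] with ε hε
    have := mid_aux hc hD h1 h2 h3 (Set.mem_Ioi.1 hε)
    linarith)
  rw [sub_zero, sub_zero, mul_zero, add_zero, max_eq_left (norm_nonneg _), max_eq_left hδ,
    norm_smul, Real.norm_of_nonneg (by norm_num)] at hge
  nlinarith

theorem diamond_aux {Z : Type} [NormedAddCommGroup Z] [NormedSpace ℝ Z] {c : ℝ} (hc : 0 < c)
    (hD : Dense {u : Z | TwoAMUC c u}) (k : ℕ) : ∀ (f : (diamond k).V → Z) (s M : ℝ), 0 < s →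
      (∀ x y, s * ((diamond k).E.dist x y : ℝ) ≤ ‖f x - f y‖) →
      (∀ x y, (diamond k).E.Adj x y → ‖f x - f y‖ ^ 2 ≤ s ^ 2 * M) →
      1 + k * c / 2 ≤ M := by
  induction k with
  | zero =>
    intro f s M hs h1 h2
    obtain ⟨x, y, hxy⟩ := exists_adj_diamond 0
    have e1 := h1 x y
    have e2 := h2 x y hxy
    rw [SimpleGraph.dist_eq_one_iff_adj.2 hxy, Nat.cast_one, mul_one] at e1
    have e3 : s ^ 2 ≤ ‖f x - f y‖ ^ 2 := pow_le_pow_left₀ hs.le e1 2
    have e4 : s ^ 2 * 1 ≤ s ^ 2 * M := by linarith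
    have := le_of_mul_le_mul_left e4 (by positivity)
    simpa using this
  | succ k ih =>
    intro f s M hs h1 h2
    have hpre := preconnected_diamond k
    have hstep := ih (fun a => f (.inl a)) (2 * s) (M - c / 2) (by linarith) ?_ ?_
    · push_cast
      linarith
    · intro x y
      have e1 := h1 (.inl x) (.inl y)
      have e2 : (2 * (diamond k).E.dist x y : ℝ) ≤
          ((diamond (k + 1)).E.dist (.inl x) (.inl y) : ℝ) := by
        exact_mod_cast two_mul_dist_le hpre x y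
      have e3 := mul_le_mul_of_nonneg_left e2 hs.le
      calc 2 * s * ((diamond k).E.dist x y : ℝ) = s * (2 * ((diamond k).E.dist x y : ℝ)) := by
            ring
        _ ≤ _ := e3.trans e1
    · intro x y hxy
      have g1 : ∀ i : ℕ, ‖f (.inl x) - f (.inr (⟨s(x, y), hxy⟩, i))‖ ^ 2 ≤ s ^ 2 * M := fun i =>
        h2 _ _ (adj_inl_inr (by simp))
      have g2 : ∀ i : ℕ, ‖f (.inr (⟨s(x, y), hxy⟩, i)) - f (.inl y)‖ ^ 2 ≤ s ^ 2 * M := fun i =>
        h2 _ _ (adj_inr_inl (by simp))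
      have g3 : ∀ i j : ℕ, i ≠ j →
          2 * s ≤ ‖f (.inr (⟨s(x, y), hxy⟩, i)) - f (.inr (⟨s(x, y), hxy⟩, j))‖ := by
        intro i j hij
        refine le_trans ?_ (h1 _ _)
        have : (2 : ℝ) ≤ ((diamond (k + 1)).E.dist (.inr (⟨s(x, y), hxy⟩, i))
            (.inr (⟨s(x, y), hxy⟩, j)) : ℝ) := by
          exact_mod_cast two_le_dist hpre ⟨s(x, y), hxy⟩ hij
        nlinarith
      have hM : 0 ≤ s ^ 2 * M := (sq_nonneg _).trans (g1 0)
      have := mid hc hD (L := Real.sqrt (s ^ 2 * M)) (δ := s) hs.le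
        (fun i => Real.le_sqrt_of_sq_le (g1 i)) (fun i => Real.le_sqrt_of_sq_le (g2 i)) g3
      rw [Real.sq_sqrt hM] at this
      nlinarith

theorem diamond_lower {Z : Type} [NormedAddCommGroup Z] [NormedSpace ℝ Z] {c : ℝ} (hc : 0 < c)
    (hD : Dense {u : Z | TwoAMUC c u}) (k : ℕ) (D : ℝ) (h : EmbedsWith (diamond k) Z D) :
    Real.sqrt (1 + k * c / 2) ≤ D := by
  obtain ⟨f, s, hs, hf⟩ := h
  have hD0 : 0 ≤ D := by
    obtain ⟨x, y, hxy⟩ := exists_adj_diamond k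
    have h1 := hf x y
    rw [SimpleGraph.dist_eq_one_iff_adj.2 hxy, Nat.cast_one, mul_one] at h1
    by_contra hneg
    push Not at hneg
    have := norm_nonneg (f x - f y)
    nlinarith [h1.1, h1.2, mul_neg_of_neg_of_pos hneg hs]
  have key := diamond_aux hc hD k f s (D ^ 2) hs (fun x y => (hf x y).1) fun x y hxy => by
    have h1 := (hf x y).2
    rw [SimpleGraph.dist_eq_one_iff_adj.2 hxy, Nat.cast_one, mul_one] at h1
    calc ‖f x - f y‖ ^ 2 ≤ (D * s) ^ 2 := pow_le_pow_left₀ (norm_nonneg _) h1 2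
      _ = s ^ 2 * D ^ 2 := by ring
  rw [Real.sqrt_le_left hD0]
  exact key

end mid

end Vale.Agent.P069.H778
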