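import Vale.Agent.P069.Bdl.B1
import Vale.Agent.P069.H778.Graph
attribute [-instance] ProperSMul.toContinuousSMul IsTopologicalTorsor.toContinuousSMul IdemSemiring.toCanonicallyOrderedAdd IdemSemiring.toMulLeftMono IdemSemiring.toMulRightMono AddQuantale.instAddLeftMono AddQuantale.instAddRightMono Quantale.instMulLeftMono Quantale.instMulRightMono FiniteDimensional.rclike_to_real IsScalarTower.complexToReal FiniteDimensional.complexToReal

namespace Vale.Agent.P069.H778

open Filter Topology

/-- The embedding of the tree into `XX n`. -/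
noncomputable def FF (n : ℕ) : List ℕ → XX n
  | [] => 0
  | k :: t => FF n t + evl n (k :: t)

lemma FF_cons (n k : ℕ) (t : List ℕ) : FF n (k :: t) = FF n t + evl n (k :: t) := rfl

lemma cum_ee_of_not_suffix (n : ℕ) {p u : List ℕ} (h : ¬ p <:+ u) :
    cum n (ee p) u = 0 := by
  induction u with
  | nil => rfl
  | cons k u ih =>
    have h1 : k :: u ≠ p := fun e => h (by rw [← e])
    rw [cum_cons, ih fun h' => h (h'.trans (List.suffix_cons k u)), ee_ne h1]
    simp

lemma cum_ee_nonneg (n : ℕ) (p u : List ℕ) : 0 ≤ cum n (ee p) u := by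
  induction u with
  | nil => exact le_rfl
  | cons k u ih =>
    rw [cum_cons]
    have : 0 ≤ (ee p : List ℕ → ℝ) (k :: u) := by
      by_cases h : k :: u = p
      · rw [h, ee_self]; exact zero_le_one
      · rw [ee_ne h]
    split_ifs
    · exact add_nonneg ih this
    · linarith

lemma cum_ee_le_one (n : ℕ) (p u : List ℕ) : cum n (ee p) u ≤ 1 :=
  (le_abs_self _).trans ((cum_ee_le n p u).trans (by split_ifs <;> norm_num))

lemma cum_ee_append (n c : ℕ) (r l : List ℕ) (h : (l ++ c :: r).length ≤ n) :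
    cum n (ee (c :: r)) (l ++ c :: r) = 1 := by
  induction l with
  | nil =>
    rw [List.nil_append, cum_cons, cum_ee_of_not_suffix, ee_self, if_pos, zero_add]
    · simpa using h
    · intro h'
      have := h'.length_le
      simp at this
  | cons k l ih =>
    have h1 : k :: (l ++ c :: r) ≠ c :: r := fun e => by
      have := congrArg List.length e
      simp at this
      omega
    rw [List.cons_append, cum_cons, ih (by simp at h ⊢; omega), ee_ne h1]
    simp

lemma FF_apply_of_not_suffix (n : ℕ) {p u : List ℕ} (h : ¬ p <:+ u) :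
    FF n u (toY n (ee p)) = 0 := by
  induction u with
  | nil => rfl
  | cons k u ih =>
    rw [FF_cons, add_apply, ih fun h' => h (h'.trans (List.suffix_cons k u)), evl_apply,
      cum_ee_of_not_suffix n h, zero_add]

lemma FF_apply_append (n c : ℕ) (r l : List ℕ) (h : (l ++ c :: r).length ≤ n) :
    FF n (l ++ c :: r) (toY n (ee (c :: r))) = l.length + 1 := by
  induction l with
  | nil =>
    rw [List.nil_append, FF_cons, add_apply, FF_apply_of_not_suffix, evl_apply]
    · have := cum_ee_append n c r [] h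
      rw [List.nil_append] at this
      rw [this]; simp
    · intro h'
      have := h'.length_le
      simp at this
  | cons k l ih =>
    have h2 := cum_ee_append n c r (k :: l) h
    rw [List.cons_append] at h2
    rw [List.cons_append, FF_cons, add_apply, ih (by simp at h ⊢; omega), evl_apply, h2]
    simp

lemma norm_toY_ee_le' (n : ℕ) (p : List ℕ) : ‖toY n (ee p)‖ ≤ Real.sqrt 3 := by
  refine Real.le_sqrt_of_sq_le ?_
  rw [norm_toY_sq, norm_ee]
  have : ‖SS n (ee p)‖ ^ 2 ≤ 1 := pow_le_one₀ (norm_nonneg _) (norm_SS_ee_le n p)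
  linarith

lemma norm_ee_sub_sq {p q : List ℕ} (h : p ≠ q) : ‖ee p - ee q‖ ^ 2 = 2 := by
  have h1 : inner ℝ (ee p) (ee q) = 0 := by
    rw [lp.inner_eq_tsum]
    refine (tsum_congr fun t => ?_).trans tsum_zero
    by_cases ht : t = p
    · have h2 : t ≠ q := fun e => h (ht.symm.trans e)
      rw [ee_ne h2, inner_zero_right]
    · rw [ee_ne ht, inner_zero_left]
  rw [norm_sub_sq_real, h1, norm_ee, norm_ee]
  norm_num

lemma norm_toY_ee_sub_le (n : ℕ) {p q : List ℕ} (h : p ≠ q) :
    ‖toY n (ee p - ee q)‖ ≤ Real.sqrt 3 := by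
  refine Real.le_sqrt_of_sq_le ?_
  rw [norm_toY_sq, norm_ee_sub_sq h]
  have h1 : ‖SS n (ee p - ee q)‖ ≤ 1 := by
    refine lp.norm_le_of_forall_le zero_le_one fun t => ?_
    rw [map_sub]
    have : (SS n (ee p) - SS n (ee q)) t = cum n (ee p) t - cum n (ee q) t := rfl
    rw [this, Real.norm_eq_abs, abs_le]
    have := cum_ee_nonneg n p t
    have := cum_ee_nonneg n q t
    have := cum_ee_le_one n p t
    have := cum_ee_le_one n q t
    constructor <;> linarith
  have : ‖SS n (ee p - ee q)‖ ^ 2 ≤ 1 := pow_le_one₀ (norm_nonneg _) h1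
  linarith

lemma le_of_test {n : ℕ} (φ : XX n) {v : YY n} (hv : ‖v‖ ≤ Real.sqrt 3) {a : ℝ}
    (ha : φ v = a) : a ≤ Real.sqrt 3 * ‖φ‖ := by
  rw [← ha]
  calc φ v ≤ ‖φ v‖ := le_abs_self _
    _ ≤ ‖φ‖ * ‖v‖ := φ.le_opNorm v
    _ ≤ ‖φ‖ * Real.sqrt 3 := by gcongr
    _ = _ := mul_comm _ _

lemma norm_rev {n : ℕ} (φ ψ : XX n) : ‖φ - ψ‖ = ‖ψ - φ‖ := norm_sub_rev φ ψ

lemma FF_lower (n : ℕ) (r s' t' : List ℕ) (hs : (s' ++ r).length ≤ n)
    (ht : (t' ++ r).length ≤ n) (h : ∀ c s'' t'', s' = s'' ++ [c] → t' ≠ t'' ++ [c]) :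
    (s'.length + t'.length : ℝ) ≤ Real.sqrt 3 * ‖FF n (s' ++ r) - FF n (t' ++ r)‖ := by
  have hsuf : ∀ (c : ℕ) (l : List ℕ), c :: r <:+ l ++ r → ∃ l', l = l' ++ [c] := by
    rintro c l ⟨l', hl'⟩
    refine ⟨l', ?_⟩
    have : (l' ++ [c]) ++ r = l ++ r := by simpa using hl'
    exact (List.append_cancel_right this).symm
  have happ : ∀ (c : ℕ) (l : List ℕ), (l ++ [c]) ++ r = l ++ c :: r := fun c l => by simp
  rcases List.eq_nil_or_concat' s' with hs' | ⟨s'', c, hs'⟩
  · subst hs'
    rcases List.eq_nil_or_concat' t' with ht' | ⟨t'', d, ht'⟩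
    · subst ht'
      rw [List.length_nil, Nat.cast_zero, add_zero]
      positivity
    · subst ht'
      rw [happ] at ht ⊢
      rw [norm_rev]
      refine le_of_test _ (norm_toY_ee_le' n (d :: r)) ?_
      rw [sub_apply, FF_apply_append n d r t'' ht, FF_apply_of_not_suffix]
      · simp
      · intro h'
        have := h'.length_le
        simp at this
  · rcases List.eq_nil_or_concat' t' with ht' | ⟨t'', d, ht'⟩
    · subst ht'
      subst hs'
      rw [happ] at hs ⊢
      refine le_of_test _ (norm_toY_ee_le' n (c :: r)) ?_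
      rw [sub_apply, FF_apply_append n c r s'' hs, FF_apply_of_not_suffix]
      · simp
      · intro h'
        have := h'.length_le
        simp at this
    · have hcd : c ≠ d := by
        rintro rfl
        exact h c s'' t'' hs' ht'
      have n1 : ¬ d :: r <:+ s' ++ r := fun h' => by
        obtain ⟨l', hl'⟩ := hsuf d s' h'
        rw [hs'] at hl'
        have := List.append_inj_right' hl' rfl
        exact hcd (by simpa using this)
      have n2 : ¬ c :: r <:+ t' ++ r := fun h' => by
        obtain ⟨l', hl'⟩ := hsuf c t' h'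
        rw [ht'] at hl'
        have := List.append_inj_right' hl' rfl
        exact hcd (by simpa using this.symm)
      refine le_of_test _ (norm_toY_ee_sub_le n (p := c :: r) (q := d :: r)
        (by simpa using hcd)) ?_
      have e1 := FF_apply_of_not_suffix n n1
      have e2 := FF_apply_of_not_suffix n n2
      subst hs'
      subst ht'
      rw [happ] at hs ht e1 e2 ⊢
      rw [happ]
      rw [map_sub, map_sub, sub_apply, sub_apply, FF_apply_append n c r s'' hs, e1, e2,
        FF_apply_append n d r t'' ht]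
      simp only [List.length_append, List.length_singleton]
      push_cast
      ring

theorem walk_upper {E : Type*} [NormedAddCommGroup E] (g : List ℕ → E)
    (hg : ∀ i t, ‖g (i :: t) - g t‖ ≤ 1) {n : ℕ} {s t : (tree n).V} (p : (tree n).E.Walk s t) :
    ‖g s.1 - g t.1‖ ≤ p.length := by
  induction p with
  | nil => simp
  | @cons u v w huv p ih =>
    rw [SimpleGraph.Walk.length_cons]
    push_cast
    have h1 : ‖g u.1 - g v.1‖ ≤ 1 := by
      rcases huv with ⟨i, hi⟩ | ⟨i, hi⟩
      · rw [hi]; exact hg _ _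
      · rw [hi, norm_sub_rev]; exact hg _ _
    have h2 := norm_add_le (g u.1 - g v.1) (g v.1 - g w.1)
    rw [sub_add_sub_cancel] at h2
    linarith

theorem embeds_tree (n : ℕ) : EmbedsWith (tree n) (lp XX 2) (Real.sqrt 3) := by
  have h3 : 0 < Real.sqrt 3 := Real.sqrt_pos.2 (by norm_num)
  have hiso : ∀ s t : List ℕ, ‖(lp.single 2 n (FF n s) : lp XX 2) -
      lp.single 2 n (FF n t)‖ = ‖FF n s - FF n t‖ := by
    intro s t
    rw [← lp.single_sub, lp.norm_single (by norm_num)]
  have hstep : ∀ (i : ℕ) (t : List ℕ), ‖(lp.single 2 n (FF n (i :: t)) : lp XX 2) -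
      lp.single 2 n (FF n t)‖ ≤ 1 := by
    intro i t
    rw [hiso, FF_cons, add_sub_cancel_left]
    exact norm_evl_le _ _
  refine ⟨fun t => lp.single 2 n (FF n t.1), (Real.sqrt 3)⁻¹, inv_pos.2 h3, fun s t => ⟨?_, ?_⟩⟩
  · rw [hiso]
    obtain ⟨s, hs⟩ := s
    obtain ⟨t, ht⟩ := t
    obtain ⟨r, s', t', rfl, rfl, h⟩ := exists_lcs s t
    have h1 := FF_lower n r s' t' hs ht h
    have h2 : ((tree n).E.dist ⟨s' ++ r, hs⟩ ⟨t' ++ r, ht⟩ : ℝ) ≤ s'.length + t'.length := by
      exact_mod_cast tree_dist_le s' t' r hs ht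
    rw [inv_mul_le_iff₀ h3]
    exact h2.trans h1
  · rw [← mul_assoc, mul_inv_cancel₀ h3.ne', one_mul]
    obtain ⟨p, hp⟩ := (preconnected_tree n s t).exists_walk_length_eq_dist
    rw [← hp]
    exact walk_upper (fun t => (lp.single 2 n (FF n t) : lp XX 2)) hstep p

end Vale.Agent.P069.H778
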